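import Vale.Agent.P092.H306.Pu1
import Vale.Agent.P092.H43.PPur

/-!
P092 (helper306), tracks 2 and 3 of Team P, row CL-PUR, abstract half: (R) for opposite sets for an
arbitrary source group `S` and an arbitrary target space `Y`, exclusion, purity and permutation of
two types.  No record: only the fields which are used.
-/

set_option linter.all false

open scoped InnerProductSpace ENNReal
open Filter Topology ContinuousLinearMap MeasureTheory TopologicalSpace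

namespace Vale.Agent.P092.H306.G

open Vale.Agent.P092.SD (Ms UC)
open Vale.Agent.P092.RC (Cm Pic)
open Vale.Agent.P092.H790.CTA (ORBG SIZEG)
open Vale.Agent.P092.H790.CT (PicL)
open Vale.Agent.P092.SP (UL)
open Vale.Agent.P092.H43.PPur (Fam Prx excl)
open Vale.Agent.P092.H306.Pu (ropp)

section shell

variable {Y : Type} [TopologicalSpace Y] [CompactSpace Y] [T2Space Y]

/-- a compact set in open position to another one has a neighbourhood with closure in the same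
position -/
theorem exists_shell {O : Y → Y → Prop} (hO : IsOpen {p : Y × Y | O p.1 p.2}) {K₁ K₂ : Set Y}
    (h1 : IsClosed K₁) (h2 : IsClosed K₂) (h : ∀ x ∈ K₁, ∀ y ∈ K₂, O x y) :
    ∃ A : Set Y, IsOpen A ∧ K₁ ⊆ A ∧ ∀ x ∈ closure A, ∀ y ∈ K₂, O x y := by
  obtain ⟨U, V, hU, hV, hKU, hKV, hUV⟩ := generalized_tube_lemma h1.isCompact h2.isCompact hO
    (fun p hp => h p.1 hp.1 p.2 hp.2)
  obtain ⟨A, hA, hKA, hAU⟩ := normal_exists_closure_subset h1 hU hKU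
  exact ⟨A, hA, hKA, fun x hx y hy => hUV (Set.mk_mem_prod (hAU hx) (hKV hy))⟩

/-- the capacity of the target: few elements of `Γ` near the wall with a given size move a point
into a set opposite to the attracting set -/
def CapG {Γ H : Type} [SMul H Y] (sz : Γ → ℝ) (q : Γ → H) (NA : ℝ → ℝ → Set Y → Set Γ)
    (O : Y → Y → Prop) : Prop :=
  ∀ A B : Set Y, IsOpen A → IsClosed B → (∀ x ∈ closure A, ∀ y ∈ B, O x y) →
    ∀ R : ℝ, ∃ T > 0, ∃ C : ℝ, ∀ J : ℝ, 0 ≤ J → ∀ S : Finset Γ,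
      (∀ γ ∈ S, γ ∈ NA R T A ∧ Real.log (sz γ) ≤ J) → ∀ y, (∀ γ ∈ S, q γ • y ∈ B) →
        (S.card : ℝ) ≤ C * (1 + J)

end shell

section main

variable {S E Γ K V H : Type} [Group S] [Group E] [TopologicalSpace E] [IsTopologicalGroup E]
  [Group Γ] [NormedAddCommGroup K] [InnerProductSpace ℂ K] [CompleteSpace K]
  [NormedAddCommGroup V] [ProperSpace V] [MeasurableSpace V] [BorelSpace V] {μ : Measure V}
  [IsFiniteMeasureOnCompacts μ] [μ.IsOpenPosMeasure] [Group H]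
  {ι : S →* E} {π : E →* (K →L[ℂ] K)} {lam : Γ →* (K →L[ℂ] K)} {W : Set (K →L[ℂ] K)} {Ω : K}
  {m : Set Γ → (K →L[ℂ] K)} {q : Γ → H} {sz : Γ → ℝ} {𝒰 : Filter ℕ} [𝒰.NeBot]
  {X X' Y : Type} [MulAction S X] [MulAction S X'] [TopologicalSpace Y] [CompactSpace Y]
  [T2Space Y] [MulAction H Y] [ContinuousConstSMul H Y]

/-- **(R) for opposite sets**, one source object `c` with its wall `g b g⁻¹`, another one `l` fixed
by the wall and by a root group of it. -/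
theorem ropp_g (hP : Pic π lam W Ω) (hM : Ms lam W Ω m) (hUC : UC π W Ω m) {b : S} {n : V → S}
    (hnc : Tendsto (fun s => ι (n s)) (𝓝 0) (𝓝 1))
    (horb : ∃ ρ : ℝ, 0 < ρ ∧ ρ < 1 ∧ ORBG μ (ι b) (fun s => ι (n s)) ρ π lam W Ω)
    (hsz0 : ∀ γ, 0 < sz γ) (hsz : ∀ γ, ∃ d : ℝ, 1 ≤ d ∧ ∀ y, sz (γ * y) ≤ d * sz y)
    (hS : SIZEG (ι b) π Ω m sz) (h𝒰 : 𝒰 ≤ atTop) {NA : ℝ → ℝ → Set Y → Set Γ}
    {U : X → (C(Y, ℂ) →ₗ[ℂ] (K →L[ℂ] K))} {v0 : X}
    (hdom : ∀ (g : S) (u : C(Y, ℂ)) (A : Set Y), IsOpen A → tsupport u ⊆ A → ∀ ζ : K,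
      ∀ ε > 0, ∃ R : ℝ, ∀ T > 0, ∀ᶠ t : ℕ in 𝒰,
        ‖U (g • v0) u ζ‖ ≤ ‖u‖ * ‖m (NA R T A) (π (ι (g * b ^ t * g⁻¹))⁻¹ ζ)‖ + ε)
    {F : X' → (C(Y, ℂ) →ₗ[ℂ] (K →L[ℂ] K))} {p' : ℝ} (hF : Fam π lam W q p' F)
    (hFp : ∀ g v f, π (ι g) * F v f * π (ι g)⁻¹ = F (g • v) f) {O : Y → Y → Prop}
    (hO : IsOpen {p : Y × Y | O p.1 p.2}) (hcap : CapG sz q NA O) {c : X} {l : X'} {g : S}
    (hg : g • v0 = c) (hg1 : (g * b * g⁻¹) • l = l) (hg2 : ∀ s, (g * n s * g⁻¹) • l = l)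
    (u h : C(Y, ℂ)) (huh : ∀ x ∈ tsupport u, ∀ y ∈ tsupport h, O x y) :
    U c u * F l h = 0 := by
  obtain ⟨A, hA, huA, hAO⟩ := exists_shell hO (isClosed_tsupport u) (isClosed_tsupport h) huh
  obtain ⟨ρ, hρ, hρ1, hORB⟩ := horb
  have hfix : ∀ e : S, e • l = l → Commute (F l h) (π (ι e)) := by
    intro e he
    have h1 := hFp e l h
    rw [he] at h1
    have h2 : π (ι e)⁻¹ * π (ι e) = 1 := by rw [← map_mul, inv_mul_cancel, map_one]
    change F l h * π (ι e) = π (ι e) * F l h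
    calc F l h * π (ι e) = (π (ι e) * F l h * π (ι e)⁻¹) * π (ι e) := by rw [h1]
      _ = π (ι e) * F l h * (π (ι e)⁻¹ * π (ι e)) := by simp only [mul_assoc]
      _ = π (ι e) * F l h := by rw [h2, mul_one]
  have key : U (g • v0) u * F l h = 0 := by
    refine ropp (μ := μ) (V := V) (b := ι b) (n := fun s => ι (n s)) (g := ι g)
      (sz := sz) (q := q) (𝒰 := 𝒰) (NA := fun R T => NA R T A)
      (c := ‖u‖) (d := 1) (PicL.of_pic hP) hM hUC hρ hρ1 hnc hORB hsz0 hsz hS h𝒰 (hF.ul l)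
      (hF.cm l h) (fun γ f f' hff => hF.cov γ l f f' hff) ?_ ?_ ?_ ?_
    · rw [← map_mul, ← map_inv, ← map_mul]
      exact hfix _ hg1
    · intro s
      rw [← map_mul, ← map_inv, ← map_mul]
      exact hfix _ (hg2 s)
    · intro ζ ε hε
      obtain ⟨R, hR⟩ := hdom g u A hA huA ζ ε hε
      refine ⟨R, fun T hT => (hR T hT).mono fun t ht => ?_⟩
      rw [← map_pow, ← map_mul, ← map_inv, ← map_mul]
      exact ht
    · intro R
      obtain ⟨T, hT, C, hC⟩ := hcap A (tsupport h) hA (isClosed_tsupport h) hAO R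
      refine ⟨T, hT, C, fun J hJ S hS y hy => ?_⟩
      rw [pow_one]
      exact hC J hJ S hS y hy
  rw [hg] at key
  exact key

/-- **Exclusion**: a target type occurs at one of the two source types only. -/
theorem excl_g [Nonempty X] [Nonempty X'] (hP : Pic π lam W Ω) (hM : Ms lam W Ω m)
    (hUC : UC π W Ω m) {b : S} {n : V → S} (hnc : Tendsto (fun s => ι (n s)) (𝓝 0) (𝓝 1))
    (horb : ∃ ρ : ℝ, 0 < ρ ∧ ρ < 1 ∧ ORBG μ (ι b) (fun s => ι (n s)) ρ π lam W Ω)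
    (hsz0 : ∀ γ, 0 < sz γ) (hsz : ∀ γ, ∃ d : ℝ, 1 ≤ d ∧ ∀ y, sz (γ * y) ≤ d * sz y)
    (hS : SIZEG (ι b) π Ω m sz) (h𝒰 : 𝒰 ≤ atTop) {NA : ℝ → ℝ → Set Y → Set Γ}
    {U : X → (C(Y, ℂ) →ₗ[ℂ] (K →L[ℂ] K))} {v0 : X} {p : ℝ} (hU : Fam π lam W q p U)
    (hdom : ∀ (g : S) (u : C(Y, ℂ)) (A : Set Y), IsOpen A → tsupport u ⊆ A → ∀ ζ : K,
      ∀ ε > 0, ∃ R : ℝ, ∀ T > 0, ∀ᶠ t : ℕ in 𝒰,
        ‖U (g • v0) u ζ‖ ≤ ‖u‖ * ‖m (NA R T A) (π (ι (g * b ^ t * g⁻¹))⁻¹ ζ)‖ + ε)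
    {F : X' → (C(Y, ℂ) →ₗ[ℂ] (K →L[ℂ] K))} {p' : ℝ} (hF : Fam π lam W q p' F)
    (hFp : ∀ g v f, π (ι g) * F v f * π (ι g)⁻¹ = F (g • v) f) {O : Y → Y → Prop}
    (hO : IsOpen {p : Y × Y | O p.1 p.2}) (hcap : CapG sz q NA O)
    (hfix : ∀ (c : X) (l : X'), ∃ g : S, g • v0 = c ∧ (g * b * g⁻¹) • l = l ∧
      ∀ s, (g * n s * g⁻¹) • l = l)
    {Y' : Type} {Op : Y' → Set Y} (hx : Prx q Op) {x y : Y} (hxy : O x y) : p = 0 ∨ p' = 0 := by
  obtain ⟨U₁, U₂, h1, h2, hx1, hy2, h3⟩ := isOpen_prod_iff.1 hO x y hxy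
  refine excl (U := U₁) (U' := U₂) hP hU hF hx h1 ⟨x, hx1⟩ h2 ⟨y, hy2⟩ ?_
  intro c l f g hf hg
  obtain ⟨e, he, he1, he2⟩ := hfix c l
  exact ropp_g hP hM hUC hnc horb hsz0 hsz hS h𝒰 hdom hF hFp hO hcap he he1 he2 f g
    fun s hs t ht => h3 (Set.mk_mem_prod (hf hs) (hg ht))

omit [Group S] in
/-- the algebra of purity and permutation -/
theorem pur_alg {p11 p12 p21 p22 : ℝ} (s1 : p11 + p12 = 1) (s2 : p21 + p22 = 1)
    (e1 : p11 = 0 ∨ p21 = 0) (e2 : p12 = 0 ∨ p22 = 0) :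
    (p11 = 1 ∧ p22 = 1) ∨ (p12 = 1 ∧ p21 = 1) := by
  rcases e1 with e | e
  · right
    have h12 : p12 = 1 := by rw [e, zero_add] at s1; exact s1
    have h22 : p22 = 0 := by
      rcases e2 with e' | e'
      · rw [e'] at h12
        exact absurd h12 zero_ne_one
      · exact e'
    refine ⟨h12, ?_⟩
    rw [h22, add_zero] at s2
    exact s2
  · left
    have h22 : p22 = 1 := by rw [e, zero_add] at s2; exact s2
    have h12 : p12 = 0 := by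
      rcases e2 with e' | e'
      · exact e'
      · rw [e'] at h22
        exact absurd h22 zero_ne_one
    refine ⟨?_, h22⟩
    rw [h12, add_zero] at s1
    exact s1

end main

end Vale.Agent.P092.H306.G
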