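import Vale.Agent.P092.CL.Defs
import Vale.Agent.P092.SPT.JPm
import Vale.Agent.P092.H306.G.Ropp

/-!
P092 (helper306), tracks 2 and 3 of Team P, row CL-PUR: purity of the walls and permutation of the
two types in the letters of CL/Defs, for every `L : Lt S P M V₁ V₂` with `Geo L` and `PurIn L`
(capacities and cells of the target).
-/

set_option linter.all false

open scoped InnerProductSpace ENNReal
open Filter Topology ContinuousLinearMap MeasureTheory TopologicalSpace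

namespace Vale.Agent.P092.H306.G

open Vale.Agent.P092.SD (Ms UC)
open Vale.Agent.P092.RC (Cm PicX)
open Vale.Agent.P092.H790.CTA (ORBG SIZEG)
open Vale.Agent.P092.H790.CT (PicL)
open Vale.Agent.P092.SP (UL)
open Vale.Agent.P092.CL (Lt Geo PB UFam LegP)
open Vale.Agent.P092.H43.PPur (Fam Prx)
open Vale.Agent.P092.H306.Pu (ropp)

variable {S P M V₁ V₂ : Type} [Group S] [MeasurableSpace V₁] [MeasurableSpace V₂]
  [TopologicalSpace S] [MulAction S P] [TopologicalSpace P] [CompactSpace P]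
  [ContinuousConstSMul S P] [MulAction S M] [TopologicalSpace M] [CompactSpace M]
  [ContinuousConstSMul S M] [NormedAddCommGroup V₁] [NormedAddCommGroup V₂]

/-- the inputs of purity: cells and capacities of both target types -/
structure PurIn (L : Lt S P M V₁ V₂) : Prop where
  o1 : IsOpen {p : P × P | L.opp1 p.1 p.2}
  o2 : IsOpen {p : M × M | L.opp2 p.1 p.2}
  m1 : ∀ a b : P, ∃ y, L.opp1 y a ∧ L.opp1 y b
  m2 : ∀ a b : M, ∃ y, L.opp2 y a ∧ L.opp2 y b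
  c1 : ∀ {Γ : Type} (q : Γ → S), L.UD q → CapG (fun γ => L.nm (q γ)) q (L.na1 q) L.opp1
  c2 : ∀ {Γ : Type} (q : Γ → S), L.UD q → CapG (fun γ => L.nm (q γ)) q (L.na2 q) L.opp2

section prx

variable {L : Lt S P M V₁ V₂} {Γ : Type} {q : Γ → S}

theorem opp1_symm {x y : P} (h : L.opp1 x y) : L.opp1 y x := fun l hy hx => h l hx hy

theorem opp2_symm {x y : M} (h : L.opp2 x y) : L.opp2 y x := fun l hy hx => h l hx hy

theorem prx1 (hI : PurIn L) (h : ∀ (z : P) (D : Set P), IsCompact D → (∀ y ∈ D, L.opp1 y z) →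
    ∀ U : Set P, IsOpen U → U.Nonempty → ∃ γ, ∀ y ∈ D, q γ • y ∈ U) :
    Prx q (fun z : P => {y | L.opp1 y z}) where
  op z := hI.o1.preimage (f := fun y : P => (y, z)) (by fun_prop)
  all y := by
    obtain ⟨z, hz, -⟩ := hI.m1 y y
    exact ⟨z, opp1_symm hz⟩
  meet a b := by
    obtain ⟨y, h1, h2⟩ := hI.m1 a b
    exact ⟨y, h1, h2⟩
  prox z D hD hDc U hU hne := h z D hDc (fun y hy => hD hy) U hU hne

theorem prx2 (hI : PurIn L) (h : ∀ (z : M) (D : Set M), IsCompact D → (∀ y ∈ D, L.opp2 y z) →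
    ∀ U : Set M, IsOpen U → U.Nonempty → ∃ γ, ∀ y ∈ D, q γ • y ∈ U) :
    Prx q (fun z : M => {y | L.opp2 y z}) where
  op z := hI.o2.preimage (f := fun y : M => (y, z)) (by fun_prop)
  all y := by
    obtain ⟨z, hz, -⟩ := hI.m2 y y
    exact ⟨z, opp2_symm hz⟩
  meet a b := by
    obtain ⟨y, h1, h2⟩ := hI.m2 a b
    exact ⟨y, h1, h2⟩
  prox z D hD hDc U hU hne := h z D hDc (fun y hy => hD hy) U hU hne

end prx

section main

variable {L : Lt S P M V₁ V₂} {E Γ K : Type} [Group E] [TopologicalSpace E] [Group Γ]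
  [NormedAddCommGroup K] [InnerProductSpace ℂ K] [CompleteSpace K] {𝒰 : Ultrafilter ℕ}
  {ι : S →* E} {π : E →* (K →L[ℂ] K)} {lam : Γ →* (K →L[ℂ] K)} {W : Set (K →L[ℂ] K)} {Ω : K}
  {m : Set Γ → (K →L[ℂ] K)} {q : Γ → S}

theorem picL_of (h : PicX π lam W Ω) : PicL π lam W Ω :=
  ⟨h.adjP, h.adjL, h.comm, h.Wadj, h.WP, h.WL, h.tr_adj⟩

/-- translations distort the size by a bounded factor -/
theorem nm_dist (hG : Geo L) (hq : L.PH q) (γ : Γ) :
    ∃ d : ℝ, 1 ≤ d ∧ ∀ y, L.nm (q (γ * y)) ≤ d * L.nm (q y) := by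
  obtain ⟨C, hC, hm⟩ := hG.nm_mul
  refine ⟨max 1 (C * L.nm (q γ)), le_max_left _ _, fun y => ?_⟩
  obtain ⟨z, hz, he⟩ := hq γ y
  rw [he, hG.z_nm z hz]
  refine (hm _ _).trans ?_
  rw [← mul_assoc]
  exact mul_le_mul_of_nonneg_right (le_max_right _ _) (hG.nm_pos _).le

section fam

variable {X Y : Type} [MulAction S X] [TopologicalSpace Y] [CompactSpace Y] [MulAction S Y]
  [ContinuousConstSMul S Y]

theorem fam_of_ufam (hb : PB L 𝒰 ι π lam W Ω m q) {b : S} {v0 : X}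
    {NA : ℝ → ℝ → Set Y → Set Γ} {U : X → (C(Y, ℂ) →ₗ[ℂ] (K →L[ℂ] K))} {p : ℝ}
    (h : UFam 𝒰 b v0 ι π lam W m q NA U p) : Fam π lam W q p U where
  ul := h.ul
  cm := h.cm
  cov γ z f f' hff := by
    rw [h.cov]
    congr 1
    ext y
    change f ((q γ)⁻¹ • y) = f' y
    rw [← hff, smul_inv_smul]
  pst e z := by
    obtain ⟨g, rfl⟩ := hb.adm.sur e
    exact ⟨g • z, fun f => h.pcov g z f⟩

end fam

variable [ProperSpace V₁] [BorelSpace V₁]

/-- **(R) for opposite sets**: a source point and a source maximal subspace, the same target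
type. -/
theorem ropp_fam [IsFiniteMeasureOnCompacts L.μ₁] [L.μ₁.IsOpenPosMeasure] {Y : Type}
    [TopologicalSpace Y] [CompactSpace Y] [T2Space Y] [MulAction S Y] [ContinuousConstSMul S Y]
    (hG : Geo L) (hb : PB L 𝒰 ι π lam W Ω m q) {NA : ℝ → ℝ → Set Y → Set Γ}
    {U : P → (C(Y, ℂ) →ₗ[ℂ] (K →L[ℂ] K))} {p : ℝ} {F : M → (C(Y, ℂ) →ₗ[ℂ] (K →L[ℂ] K))} {p' : ℝ}
    (hU : UFam 𝒰 L.b1 L.p0 ι π lam W m q NA U p) (hF : UFam 𝒰 L.b2 L.m0 ι π lam W m q NA F p')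
    {O : Y → Y → Prop} (hO : IsOpen {p : Y × Y | O p.1 p.2})
    (hcap : CapG (fun γ => L.nm (q γ)) q NA O) (c : P) (l : M) (u h : C(Y, ℂ))
    (huh : ∀ x ∈ tsupport u, ∀ y ∈ tsupport h, O x y) : U c u * F l h = 0 := by
  haveI := hb.adm.tg
  obtain ⟨g, hg, hg1, hg2⟩ := hG.fix1 c l
  obtain ⟨A, hA, huA, hAO⟩ := exists_shell hO (isClosed_tsupport u) (isClosed_tsupport h) huh
  obtain ⟨ρ, hρ, hρ1, hORB⟩ := hb.orb1
  have hfix : ∀ e : S, e • l = l → Commute (F l h) (π (ι e)) := by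
    intro e he
    have h1 := hF.pcov e l h
    rw [he] at h1
    have h2 : π (ι e)⁻¹ * π (ι e) = 1 := by rw [← map_mul, inv_mul_cancel, map_one]
    change F l h * π (ι e) = π (ι e) * F l h
    calc F l h * π (ι e) = (π (ι e) * F l h * π (ι e)⁻¹) * π (ι e) := by rw [h1]
      _ = π (ι e) * F l h * (π (ι e)⁻¹ * π (ι e)) := by simp only [mul_assoc]
      _ = π (ι e) * F l h := by rw [h2, mul_one]
  have key : U (g • L.p0) u * F l h = 0 := by
    refine ropp (μ := L.μ₁) (V := V₁) (b := ι L.b1) (n := fun s => ι (L.u1 s)) (g := ι g)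
      (sz := fun γ => L.nm (q γ)) (q := q) (𝒰 := (𝒰 : Filter ℕ)) (NA := fun R T => NA R T A)
      (c := ‖u‖) (d := 1)
      (picL_of hb.pic) hb.ms hb.uc hρ hρ1 ?_ hORB (fun γ => hG.nm_pos _) (nm_dist hG hb.ph)
      hb.size1 hb.h𝒰 (hF.ul l) (hF.cm l h)
      (fun γ f f' hff => (fam_of_ufam hb hF).cov γ l f f' hff) ?_ ?_ ?_ ?_
    · have h1 : Continuous fun s : V₁ => ι (L.u1 s) := hb.adm.cι.comp hG.u1c
      have h2 := h1.tendsto 0
      rwa [hG.u10, map_one] at h2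
    · rw [← map_mul, ← map_inv, ← map_mul]
      exact hfix _ hg1
    · intro s
      rw [← map_mul, ← map_inv, ← map_mul]
      exact hfix _ (hg2 s)
    · intro ζ ε hε
      obtain ⟨R, hR⟩ := hU.dom g u A hA huA ζ ε hε
      refine ⟨R, fun T hT => (hR T hT).mono fun t ht => ?_⟩
      rw [← map_pow, ← map_mul, ← map_inv, ← map_mul]
      exact ht
    · intro R
      obtain ⟨T, hT, C, hC⟩ := hcap A (tsupport h) hA (isClosed_tsupport h) hAO R
      refine ⟨T, hT, C, fun J hJ S hS y hy => ?_⟩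
      rw [pow_one]
      exact hC J hJ S hS y hy
  rw [hg] at key
  exact key

/-- a target type occurs at one of the two source types only -/
theorem excl_type [IsFiniteMeasureOnCompacts L.μ₁] [L.μ₁.IsOpenPosMeasure] {Y : Type}
    [TopologicalSpace Y] [CompactSpace Y] [T2Space Y] [MulAction S Y] [ContinuousConstSMul S Y]
    (hG : Geo L) (hb : PB L 𝒰 ι π lam W Ω m q) {NA : ℝ → ℝ → Set Y → Set Γ}
    {U : P → (C(Y, ℂ) →ₗ[ℂ] (K →L[ℂ] K))} {p : ℝ} {F : M → (C(Y, ℂ) →ₗ[ℂ] (K →L[ℂ] K))} {p' : ℝ}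
    (hU : UFam 𝒰 L.b1 L.p0 ι π lam W m q NA U p) (hF : UFam 𝒰 L.b2 L.m0 ι π lam W m q NA F p')
    {O : Y → Y → Prop} (hO : IsOpen {p : Y × Y | O p.1 p.2})
    (hcap : CapG (fun γ => L.nm (q γ)) q NA O) {Y' : Type} {Op : Y' → Set Y} (hx : Prx q Op)
    {x y : Y} (hxy : O x y) : p = 0 ∨ p' = 0 := by
  obtain ⟨U₁, U₂, h1, h2, hx1, hy2, h3⟩ := isOpen_prod_iff.1 hO x y hxy
  haveI : Nonempty P := ⟨L.p0⟩
  haveI : Nonempty M := ⟨L.m0⟩
  obtain ⟨Ω', hI⟩ := SP.X.toI hb.pic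
  refine SP.X.excl (U := U₁) (U' := U₂) hI (fam_of_ufam hb hU) (fam_of_ufam hb hF) hx h1 ⟨x, hx1⟩
    h2 ⟨y, hy2⟩ ?_
  intro c l f g hf hg
  exact ropp_fam hG hb hU hF hO hcap c l f g fun s hs t ht =>
    h3 (Set.mk_mem_prod (hf hs) (hg ht))

/-- **Purity and permutation** (CL-PUR). -/
theorem pur_cl [IsFiniteMeasureOnCompacts L.μ₁] [L.μ₁.IsOpenPosMeasure] (hG : Geo L)
    (hI : PurIn L) {U11 : P → (C(P, ℂ) →ₗ[ℂ] (K →L[ℂ] K))} {p11 : ℝ}
    {U12 : P → (C(M, ℂ) →ₗ[ℂ] (K →L[ℂ] K))} {p12 : ℝ}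
    {U21 : M → (C(P, ℂ) →ₗ[ℂ] (K →L[ℂ] K))} {p21 : ℝ}
    {U22 : M → (C(M, ℂ) →ₗ[ℂ] (K →L[ℂ] K))} {p22 : ℝ}
    (h : LegP L 𝒰 ι π lam W Ω m q U11 p11 U12 p12 U21 p21 U22 p22) :
    (p11 = 1 ∧ p22 = 1) ∨ (p12 = 1 ∧ p21 = 1) := by
  haveI := hG.t2P
  haveI := hG.t2M
  obtain ⟨z1, hz1, -⟩ := hI.m1 L.p0 L.p0
  obtain ⟨z2, hz2, -⟩ := hI.m2 L.m0 L.m0
  have e1 : p11 = 0 ∨ p21 = 0 := excl_type hG h.base h.u11 h.u21 hI.o1 (hI.c1 q h.base.ud)
    (prx1 hI h.base.prox1) hz1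
  have e2 : p12 = 0 ∨ p22 = 0 := excl_type hG h.base h.u12 h.u22 hI.o2 (hI.c2 q h.base.ud)
    (prx2 hI h.base.prox2) hz2
  exact pur_alg h.s1 h.s2 e1 e2

end main

end Vale.Agent.P092.H306.G
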