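import Vale.Agent.P092.CL.Lt
import Vale.Agent.P092.H631.CLProx
import Vale.Agent.P092.H306.G.Pur

/-!
P092 (helper306), tracks 2 and 3 of Team P, row CL-PUR: the cells of `PurIn` for the concrete
letters `CL.lt` (helper631: opposition is open and dense), the capacities (helper315) as
hypotheses.
-/

set_option linter.all false

open scoped InnerProductSpace ENNReal
open Filter Topology MeasureTheory TopologicalSpace

namespace Vale.Agent.P092.H306.G

open Vale.Agent.P092.H303 (FormGroup Idx hyp)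
open Vale.Agent.P092.H714.Cl
open Vale.Agent.P092.H370.Po
open Vale.Agent.P092.H631.P2 (OppS opp_open opp_open₂ opp_dense opp1_iff_S opp2_iff_S)
open Vale.Agent.P092.CL (Lt lt V2)

variable {k : Type} [NontriviallyNormedField k] [ProperSpace k] [MeasurableSpace k] {ι : Type}
  [Fintype ι] [DecidableEq ι] {s : ℕ} {σ : k →+* k} [Fact (Continuous σ)] {ε : k}
  {J₀ : Matrix ι ι k}

/-- any two singular `j`-spaces have a common opposite one -/
theorem opp_meet {n : Type} [Fintype n] [DecidableEq n] {J : Matrix n n k} (hF : Frm σ ε J)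
    {j : ℕ} (A B : SGr σ J j) : ∃ Y : SGr σ J j, OppS Y A ∧ OppS Y B := by
  have hσ : Continuous σ := Fact.out
  obtain ⟨X, -, hX⟩ := opp_dense hF hσ isOpen_univ ⟨A, trivial⟩ A
  obtain ⟨Y, hY, hYB⟩ := opp_dense hF hσ (opp_open hσ A) ⟨X, hX⟩ B
  exact ⟨Y, hY, hYB⟩

/-- **the inputs of purity for the classical letters** -/
theorem purIn_lt (hF : Frm σ ε (hyp (s + 2) ε J₀)) (hW : WI σ (hyp (s + 2) ε J₀) (s + 2)) {w : k}
    (hw : w ≠ 0) (hσ : σ w = w) (μ₁ : Measure k) (μ₂ : Measure (V2 σ ε))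
    (c1 : ∀ {Γ : Type} (q : Γ → FormGroup σ (hyp (s + 2) ε J₀)), (lt hF hw hσ μ₁ μ₂).UD q →
      CapG (fun γ => (lt hF hw hσ μ₁ μ₂).nm (q γ)) q ((lt hF hw hσ μ₁ μ₂).na1 q)
        (lt hF hw hσ μ₁ μ₂).opp1)
    (c2 : ∀ {Γ : Type} (q : Γ → FormGroup σ (hyp (s + 2) ε J₀)), (lt hF hw hσ μ₁ μ₂).UD q →
      CapG (fun γ => (lt hF hw hσ μ₁ μ₂).nm (q γ)) q ((lt hF hw hσ μ₁ μ₂).na2 q)
        (lt hF hw hσ μ₁ μ₂).opp2) : PurIn (lt hF hw hσ μ₁ μ₂) where
  o1 := by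
    have e : {p : SGr σ (hyp (s + 2) ε J₀) 1 × SGr σ (hyp (s + 2) ε J₀) 1 |
        (lt hF hw hσ μ₁ μ₂).opp1 p.1 p.2} = {p | OppS p.1 p.2} := by
      ext p
      exact opp1_iff_S hF hW (by omega)
    rw [e]
    exact opp_open₂ Fact.out
  o2 := by
    have e : {p : SGr σ (hyp (s + 2) ε J₀) (s + 2) × SGr σ (hyp (s + 2) ε J₀) (s + 2) |
        (lt hF hw hσ μ₁ μ₂).opp2 p.1 p.2} = {p | OppS p.1 p.2} := by
      ext p
      exact opp2_iff_S hF hW
    rw [e]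
    exact opp_open₂ Fact.out
  m1 a b := by
    obtain ⟨y, h1, h2⟩ := opp_meet hF a b
    exact ⟨y, (opp1_iff_S hF hW (by omega)).2 h1, (opp1_iff_S hF hW (by omega)).2 h2⟩
  m2 a b := by
    obtain ⟨y, h1, h2⟩ := opp_meet hF a b
    exact ⟨y, (opp2_iff_S hF hW).2 h1, (opp2_iff_S hF hW).2 h2⟩
  c1 := c1
  c2 := c2

end Vale.Agent.P092.H306.G
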