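import Vale.Agent.P092.CL.Quad
import Vale.Agent.P092.H315P.G5
import Vale.Agent.P092.H306.G.PurLt

/-!
P092 (helper306), tracks 2 and 3 of Team P, row CL-PUR: `PurStmt L` for every `L` with `Geo L`,
`PurIn L`; for the classical letters `CL.lt` of every form of Witt index `s + 2` (capacities:
helper315, opposition: helper631, helper43).
-/

set_option linter.all false

open scoped InnerProductSpace ENNReal
open Filter Topology MeasureTheory TopologicalSpace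

namespace Vale.Agent.P092.H306.G

open Vale.Agent.P092.H303 (FormGroup Idx hyp)
open Vale.Agent.P092.H714.Cl
open Vale.Agent.P092.H370.Po
open Vale.Agent.P092.CL (Lt lt V2 Geo PurStmt)

/-- **[CL-PUR]**, abstract letters -/
theorem purStmt_of {S P M V₁ V₂ : Type} [Group S] [MeasurableSpace V₁] [MeasurableSpace V₂]
    [TopologicalSpace S] [MulAction S P] [TopologicalSpace P] [CompactSpace P]
    [ContinuousConstSMul S P] [MulAction S M] [TopologicalSpace M] [CompactSpace M]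
    [ContinuousConstSMul S M] [NormedAddCommGroup V₁] [NormedAddCommGroup V₂] {L : Lt S P M V₁ V₂}
    [ProperSpace V₁] [BorelSpace V₁] [IsFiniteMeasureOnCompacts L.μ₁] [L.μ₁.IsOpenPosMeasure]
    (hG : Geo L) (hI : PurIn L) : PurStmt L := by
  intro E Γ K _ _ _ _ _ _ 𝒰 ι π lam W Ω m q U11 p11 U12 p12 U21 p21 U22 p22 h
  exact pur_cl hG hI h

variable {k : Type} [NontriviallyNormedField k] [ProperSpace k] [MeasurableSpace k] {ι : Type}
  [Fintype ι] [DecidableEq ι] {s : ℕ} {σ : k →+* k} [Fact (Continuous σ)] {ε : k}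
  {J₀ : Matrix ι ι k}

/-- **the inputs of purity for the classical letters**, complete -/
theorem purIn_cl (hF : Frm σ ε (hyp (s + 2) ε J₀)) (hW : WI σ (hyp (s + 2) ε J₀) (s + 2)) {w : k}
    (hw : w ≠ 0) (hσ : σ w = w) (hσn : ∀ x, ‖σ x‖ = ‖x‖) (μ₁ : Measure k)
    (μ₂ : Measure (V2 σ ε)) : PurIn (lt hF hw hσ μ₁ μ₂) :=
  purIn_lt hF hW hw hσ μ₁ μ₂
    (fun _ hud => H315P.G.cap1 hF hw hσ μ₁ μ₂ hσn hW hud)
    (fun _ hud => H315P.G.cap2 hF hw hσ μ₁ μ₂ hσn hW hud)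

/-- **[CL-PUR]** for the classical letters -/
theorem purStmt_cl [BorelSpace k] (hF : Frm σ ε (hyp (s + 2) ε J₀))
    (hW : WI σ (hyp (s + 2) ε J₀) (s + 2)) {w : k} (hw : w ≠ 0) (hσ : σ w = w)
    (hσn : ∀ x, ‖σ x‖ = ‖x‖) (μ₁ : Measure k) [IsFiniteMeasureOnCompacts μ₁]
    [μ₁.IsOpenPosMeasure] (μ₂ : Measure (V2 σ ε)) (hG : Geo (lt hF hw hσ μ₁ μ₂)) :
    PurStmt (lt hF hw hσ μ₁ μ₂) := by
  haveI : IsFiniteMeasureOnCompacts (lt hF hw hσ μ₁ μ₂).μ₁ := ‹IsFiniteMeasureOnCompacts μ₁›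
  haveI : (lt hF hw hσ μ₁ μ₂).μ₁.IsOpenPosMeasure := ‹μ₁.IsOpenPosMeasure›
  intro E Γ K _ _ _ _ _ _ 𝒰 ι π lam W Ω m q U11 p11 U12 p12 U21 p21 U22 p22 h
  exact pur_cl hG (purIn_cl hF hW hw hσ hσn μ₁ μ₂) h

end Vale.Agent.P092.H306.G
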