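import Vale.Agent.P092.H370.Fo5
import Vale.Agent.P092.H631.P2Dense

/-!
P092 (helper306), Team P, stage CL-O: opposite singular `j`-spaces of a form of ANY kind (`Wf`, the
orthogonal ones too): symmetry, density (one parameter Eichler elements), common opposite spaces,
the two notions of opposition of `CL/Defs`.
-/

set_option linter.all false

open Matrix Module Set Topology Filter

namespace Vale.Agent.P092.H306.G

open Vale.Agent.P092.H303 (FormGroup)
open Vale.Agent.P092.H714.Cl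
open Vale.Agent.P092.H714.Sg (Fm)
open Vale.Agent.P092.H370.Po (Sing Ort perp mem_perp perp_anti ort_sup_left ort_sup_right act
  mem_act finrank_act SGr Inc Col WI smul_S inc_iff_eq finrank_sup_span vecMul_mem_act
  col_closed inc_closed)
open Vale.Agent.P092.H370.Fo (EP ei eim vecMul_ei ei_mem EU ei_mem_EU Fo Wf le_finrank_perp)
open Vale.Agent.P092.H631.P2 (OppS Op₁ not_opp_iff opp_open opp_open₂)

section alg

variable {n : Type} [Fintype n] [DecidableEq n] {k : Type} [Field k]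
  {σ : k →+* k} {ε : k} {J : Matrix n n k} {i j r : ℕ}

/-! ### Symmetry -/

theorem perp_symmF (hF : Fm σ ε J) {X : Submodule k (n → k)} {y : n → k} :
    y ∈ perp σ J X ↔ ∀ x ∈ X, hf σ J y x = 0 :=
  mem_perp.trans ⟨fun h x hx => hF.symm0 (h x hx), fun h x hx => hF.symm0 (h x hx)⟩

theorem op₁_disjF (hF : Fm σ ε J) {X Y : Submodule k (n → k)} (h : Op₁ σ J X Y) :
    Disjoint X (perp σ J Y) := by
  rw [Submodule.disjoint_def]
  intro x hx hx'
  exact h x hx ((perp_symmF hF).1 hx')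

theorem op₁_complF (hF : Fm σ ε J) {X Y : Submodule k (n → k)}
    (hd : finrank k X = finrank k Y) (h : Op₁ σ J X Y) : IsCompl X (perp σ J Y) := by
  refine ⟨op₁_disjF hF h, ?_⟩
  rw [codisjoint_iff]
  have h1 := Submodule.finrank_sup_add_finrank_inf_eq X (perp σ J Y)
  rw [(disjoint_iff.1 (op₁_disjF hF h)), finrank_bot, add_zero] at h1
  have h2 := le_finrank_perp hF Y
  refine Submodule.eq_top_of_finrank_eq (le_antisymm (Submodule.finrank_le _) ?_)
  rw [finrank_fintype_fun_eq_card]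
  omega

/-- the relation is symmetric for spaces of the same dimension -/
theorem op₁_symmF (hF : Fm σ ε J) {X Y : Submodule k (n → k)}
    (hd : finrank k X = finrank k Y) (h : Op₁ σ J X Y) : Op₁ σ J Y X := by
  intro y hy hyX
  by_contra hy0
  obtain ⟨z, hz⟩ := hF.nondeg y hy0
  have hz' : z ∈ X ⊔ perp σ J Y := by
    rw [(op₁_complF hF hd h).sup_eq_top]
    exact Submodule.mem_top
  obtain ⟨a, ha, b, hb, rfl⟩ := Submodule.mem_sup.1 hz'
  rw [hf_add_right, hyX a ha, mem_perp.1 hb y hy, add_zero] at hz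
  exact hz rfl

theorem oppS_symm (hF : Fm σ ε J) {X Y : SGr σ J j} (h : OppS X Y) : OppS Y X :=
  op₁_symmF hF (X.dim.trans Y.dim.symm) h

theorem oppS_compl (hF : Fm σ ε J) {X Y : SGr σ J j} (h : OppS X Y) :
    IsCompl X.S (perp σ J Y.S) :=
  op₁_complF hF (X.dim.trans Y.dim.symm) h

/-! ### One step -/

theorem ep_smul {u v : n → k} {c : k} (h : EP σ ε J u v c) (hi : ∀ x, σ (σ x) = x) (t : k) :
    EP σ ε J u (t • v) (t * σ t * c) where
  uu := h.uu
  vu := by rw [hf_smul_left, h.vu, mul_zero]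
  vv := by
    rw [hf_smul_left, hf_smul_right, map_mul, map_mul, hi]
    linear_combination (t * σ t) * h.vv

/-- the inverse Eichler element as an element of the group -/
noncomputable def eiv (hF : Fm σ ε J) {u v : n → k} {c : k} (h : EP σ ε J u v c) :
    FormGroup σ J := ⟨ei σ ε J u v c, ei_mem hF h⟩⁻¹

theorem eiv_S (hF : Fm σ ε J) {u v : n → k} {c : k} (h : EP σ ε J u v c) (X : SGr σ J j) :
    (eiv hF h • X).S = act (ei σ ε J u v c) X.S := by
  have h : ((eiv hF h).1⁻¹ : SpecialLinearGroup n k) = ei σ ε J u v c := by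
    change ((ei σ ε J u v c)⁻¹)⁻¹ = _
    rw [inv_inv]
  rw [smul_S, h]

theorem mem_perp_spanF {u y : n → k} :
    y ∈ perp σ J (Submodule.span k {u}) ↔ hf σ J u y = 0 := by
  rw [mem_perp]
  constructor
  · intro h
    exact h u (Submodule.mem_span_singleton_self u)
  · intro h x hx
    obtain ⟨a, rfl⟩ := Submodule.mem_span_singleton.1 hx
    rw [hf_smul_left, h, mul_zero]

/-- the drop of the dimension -/
theorem drop (hF : Fm σ ε J) {X Y : Submodule k (n → k)} {g : SpecialLinearGroup n k}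
    {u x : n → k} (hx : x ∈ X) (hxY : ∀ y ∈ Y, hf σ J x y = 0) (hxu : hf σ J x u ≠ 0)
    (h : ∀ w ∈ X, (∀ y ∈ Y, hf σ J (w ᵥ* g.1) y = 0) →
      hf σ J w u = 0 ∧ ∀ y ∈ Y, hf σ J w y = 0) :
    finrank k ↥(act g X ⊓ perp σ J Y) < finrank k ↥(X ⊓ perp σ J Y) := by
  set Z := X ⊓ perp σ J Y ⊓ perp σ J (Submodule.span k {u}) with hZ
  have h1 : act g X ⊓ perp σ J Y ≤ act g Z := by
    rintro z ⟨hz1, hz2⟩
    obtain ⟨w, hw, rfl⟩ := mem_act.1 hz1
    obtain ⟨h2, h3⟩ := h w hw ((perp_symmF hF).1 hz2)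
    exact vecMul_mem_act ⟨⟨hw, (perp_symmF hF).2 h3⟩, mem_perp_spanF.2 (hF.symm0 h2)⟩
  have h4 : Z < X ⊓ perp σ J Y := by
    refine lt_of_le_of_ne inf_le_left fun he => ?_
    have hxm : x ∈ X ⊓ perp σ J Y := ⟨hx, (perp_symmF hF).2 hxY⟩
    rw [← he] at hxm
    exact hxu (hF.symm0 (mem_perp_spanF.1 hxm.2))
  calc finrank k ↥(act g X ⊓ perp σ J Y) ≤ finrank k ↥(act g Z) := Submodule.finrank_mono h1
    _ = finrank k Z := finrank_act g Z
    _ < _ := Submodule.finrank_lt_finrank_of_lt h4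

/-- the scalar of an Eichler element -/
theorem exists_ep (hF : Fm σ ε J) {u v : n → k} (hu : hf σ J u u = 0) (hv : hf σ J v u = 0) :
    ∃ c, EP σ ε J u v c ∧ (hf σ J v v ≠ 0 → c ≠ 0) := by
  obtain ⟨β, hβ⟩ := hF.tv v
  refine ⟨-β, ⟨hu, hv, ?_⟩, fun h h0 => h ?_⟩
  · rw [hβ, map_neg]
    ring
  · rw [hβ, neg_eq_zero.1 h0, map_zero, mul_zero, add_zero]

/-- the parameters orthogonal to a singular space -/
theorem exists_ep_perp (hF : Wf σ ε J r) (X : SGr σ J j) {x u : n → k} (hx : x ∈ X.S)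
    (hu : hf σ J u u = 0) (hxu : hf σ J x u ≠ 0) :
    ∃ v c, EP σ ε J u v c ∧ c ≠ 0 ∧ ∀ w ∈ X.S, hf σ J w v = 0 := by
  by_cases hcc : ∃ c, c ≠ 0 ∧ c + ε * σ c = 0
  · obtain ⟨c, h0, hc⟩ := hcc
    refine ⟨0, c, ⟨hu, hf_zero_left σ J u, ?_⟩, h0, fun w _ => hf_zero_right σ J w⟩
    rw [hf_zero_left, add_zero, hc]
  have hn := hF.thick.resolve_left hcc
  push Not at hcc
  have hc0 : ∀ c, c + ε * σ c = 0 → c = 0 := fun c hc => by
    by_contra h
    exact hcc c h hc
  set T := X.S ⊔ Submodule.span k {u} with hT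
  have huT : u ∈ T := (le_sup_right : Submodule.span k {u} ≤ T)
    (Submodule.mem_span_singleton_self u)
  obtain ⟨v, hvT, hv⟩ : ∃ v ∈ perp σ J T, hf σ J v v ≠ 0 := by
    by_contra hcon
    push Not at hcon
    have hs : Sing σ J (perp σ J T) := by
      intro x hx y hy
      have h1 := hcon (x + y) ((perp σ J T).add_mem hx hy)
      rw [hf_add_left, hf_add_right, hf_add_right, hcon x hx, hcon y hy, hF.fm.herm x y] at h1
      exact hc0 _ (by linear_combination h1)
    have hxp : x ∉ perp σ J T := fun h => hxu (hF.fm.symm0 (h u huT))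
    have h2 := hF.wi.2 _ (H370.Fo.sing_sup_span hF.fo hs (X.sing x hx x hx) fun y hy =>
      hF.fm.symm0 (hy x ((le_sup_left : X.S ≤ T) hx)))
    rw [finrank_sup_span hxp] at h2
    have h3 := le_finrank_perp hF.fm T
    have h4 : finrank k T ≤ j + 1 := by
      refine (Submodule.finrank_add_le_finrank_add_finrank _ _).trans ?_
      rw [X.dim]
      exact add_le_add le_rfl ((finrank_span_le_card ({u} : Set (n → k))).trans (by simp))
    have h5 := hF.wi.2 _ X.sing
    rw [X.dim] at h5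
    omega
  obtain ⟨c, hc, hc1⟩ := exists_ep hF.fm hu (hF.fm.symm0 (hvT u huT))
  exact ⟨v, c, hc, hc1 hv, fun w hw => hvT w ((le_sup_left : X.S ≤ T) hw)⟩

/-- **one step towards opposition** -/
theorem stepW (hF : Wf σ ε J r) {X Y : SGr σ J j} (h : ¬ OppS X Y) :
    ∃ (u v : n → k) (c : k), EP σ ε J u v c ∧ ∀ t : k, t ≠ 0 →
      finrank k ↥(act (ei σ ε J u (t • v) (t * σ t * c)) X.S ⊓ perp σ J Y.S) <
        finrank k ↥(X.S ⊓ perp σ J Y.S) := by
  have hm := hF.fm
  have h' : ¬ OppS Y X := fun hh => h (oppS_symm hm hh)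
  unfold OppS Op₁ at h h'
  push Not at h h'
  obtain ⟨x, hx, hxY, hx0⟩ := h
  obtain ⟨y, hy, hyX, hy0⟩ := h'
  have hxx : hf σ J x x = 0 := X.sing x hx x hx
  by_cases hxm : x ∈ Y.S
  · -- a common vector
    obtain ⟨u, hu, hxu, -⟩ := hm.partner (Y := ⊥) hxx (fun h => hx0 ((Submodule.mem_bot k).1 h))
      (fun y hy => by rw [(Submodule.mem_bot k).1 hy, hf_zero_left])
    have hxu0 : hf σ J x u ≠ 0 := by rw [hxu]; exact one_ne_zero
    obtain ⟨v, c, hep, hc, hv⟩ := exists_ep_perp hF X hx hu hxu0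
    refine ⟨u, v, c, hep, fun t ht => drop hm hx hxY hxu0 fun w hw hwY => ?_⟩
    have hc' : t * σ t * c ≠ 0 := mul_ne_zero (mul_ne_zero ht (by rwa [Ne, map_eq_zero])) hc
    have e0 : ∀ z, hf σ J (w ᵥ* (ei σ ε J u (t • v) (t * σ t * c)).1) z =
        hf σ J w z + hf σ J w u * (t * hf σ J v z) +
          ε * (t * σ t * c) * hf σ J w u * hf σ J u z := fun z => by
      rw [vecMul_ei hm (ep_smul hep hm.inv t), hf_smul_right, hv w hw, mul_zero, mul_zero,
        zero_smul, sub_zero, hf_add_left, hf_add_left, hf_smul_left, hf_smul_left, hf_smul_left]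
    have e1 : hf σ J w u = 0 := by
      have h1 := hwY x hxm
      rw [e0, X.sing w hw x hx, hm.symm0 (hv x hx), mul_zero, mul_zero, zero_add, zero_add] at h1
      have hux : hf σ J u x ≠ 0 := fun h => hxu0 (hm.symm0 h)
      have hε : ε ≠ 0 := fun h => by
        have := hm.eps
        rw [h, mul_zero] at this
        exact zero_ne_one this
      rcases mul_eq_zero.1 h1 with h2 | h2
      · exact (mul_eq_zero.1 h2).resolve_left (mul_ne_zero hε hc')
      · exact absurd h2 hux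
    refine ⟨e1, fun z hz => ?_⟩
    have h1 := hwY z hz
    rwa [e0, e1, zero_mul, mul_zero, zero_mul, add_zero, add_zero] at h1
  · obtain ⟨u, hu, hxu, huY⟩ := hm.partner hxx hxm fun y hy => hm.symm0 (hxY y hy)
    have hxu0 : hf σ J x u ≠ 0 := by rw [hxu]; exact one_ne_zero
    have hyu : y ∉ Submodule.span k {u} := by
      intro h
      obtain ⟨a, rfl⟩ := Submodule.mem_span_singleton.1 h
      have h1 := hm.symm0 (hyX x hx)
      rw [hf_smul_right, hxu, mul_one, map_eq_zero] at h1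
      exact hy0 (by rw [h1, zero_smul])
    obtain ⟨v, hyv, huv⟩ := hm.sep hyu
    have hvu : hf σ J v u = 0 := hm.symm0 (huv u (Submodule.mem_span_singleton_self u))
    have hvy : hf σ J v y ≠ 0 := fun h => by
      rw [hm.symm0 h] at hyv
      exact zero_ne_one hyv
    obtain ⟨c, hep, -⟩ := exists_ep hm hu hvu
    refine ⟨u, v, c, hep, fun t ht => drop hm hx hxY hxu0 fun w hw hwY => ?_⟩
    have e0 : ∀ z ∈ Y.S, hf σ J (w ᵥ* (ei σ ε J u (t • v) (t * σ t * c)).1) z =
        hf σ J w z + hf σ J w u * (t * hf σ J v z) := fun z hz => by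
      rw [vecMul_ei hm (ep_smul hep hm.inv t), hf_add_left, sub_eq_add_neg, ← neg_smul,
        hf_add_left, hf_add_left, hf_smul_left, hf_smul_left, hf_smul_left, hf_smul_left,
        hm.symm0 (huY z hz), mul_zero, mul_zero, add_zero, add_zero]
    have e1 : hf σ J w u = 0 := by
      have h1 := hwY y hy
      rw [e0 y hy, hm.symm0 (hyX w hw), zero_add] at h1
      exact (mul_eq_zero.1 h1).resolve_right (mul_ne_zero ht hvy)
    refine ⟨e1, fun z hz => ?_⟩
    have h1 := hwY z hz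
    rwa [e0 z hz, e1, zero_mul, add_zero] at h1

/-! ### The two notions of opposition -/

/-- two orthogonal points are in a common maximal space -/
theorem common_maxW (hF : Wf σ ε J r) (hr : 2 ≤ r) {x y : SGr σ J 1}
    (h : Col x y) : ∃ l : SGr σ J r, Inc x l ∧ Inc y l := by
  obtain ⟨l₀, hl₀, hd₀⟩ := hF.wi.1
  have hs : Sing σ J (x.S ⊔ y.S) := by
    unfold Sing
    rw [ort_sup_left, ort_sup_right, ort_sup_right]
    exact ⟨⟨x.sing, h⟩, ⟨fun a ha b hb => hF.fm.symm0 (h b hb a ha), y.sing⟩⟩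
  have hd : finrank k ↥(x.S ⊔ y.S) ≤ r := by
    have h1 := Submodule.finrank_add_le_finrank_add_finrank x.S y.S
    rw [x.dim, y.dim] at h1
    omega
  obtain ⟨Z, hZ1, hZ2, hZ3⟩ := H370.Fo.exists_above hF.fo hs hl₀ hd hd₀.ge
  exact ⟨SGr.mk' Z hZ2 hZ3, le_sup_left.trans hZ1, le_sup_right.trans hZ1⟩

/-- **opposite points** -/
theorem opp1_iff_W (hF : Wf σ ε J r) (hr : 2 ≤ r) {x y : SGr σ J 1} :
    (∀ l : SGr σ J r, Inc x l → ¬ Inc y l) ↔ OppS x y := by
  constructor
  · intro h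
    by_contra hn
    obtain ⟨P, h1, h2⟩ := not_opp_iff.1 hn
    rw [inc_iff_eq] at h1
    subst h1
    obtain ⟨l, h3, h4⟩ := common_maxW hF hr h2
    exact h l h3 h4
  · intro h l h1 h2
    refine not_opp_iff.2 ⟨x, le_rfl, fun a ha b hb => l.sing a (h1 ha) b (h2 hb)⟩ h

/-- **opposite maximal spaces** -/
theorem opp2_iff_W (hF : Wf σ ε J r) {l l' : SGr σ J r} :
    (∀ x : SGr σ J 1, Inc x l → ¬ Inc x l') ↔ OppS l l' := by
  constructor
  · intro h
    by_contra hn
    obtain ⟨P, h1, h2⟩ := not_opp_iff.1 hn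
    refine h P h1 fun v hv => ?_
    by_contra hvl
    have hvv : hf σ J v v = 0 := P.sing v hv v hv
    have h3 := hF.wi.2 _ (H370.Fo.sing_sup_span hF.fo l'.sing hvv fun x hx =>
      hF.fm.symm0 (h2 v hv x hx))
    rw [finrank_sup_span hvl, l'.dim] at h3
    omega
  · intro h x h1 h2
    exact not_opp_iff.2 ⟨x, h1, h2.col⟩ h

end alg

section top

variable {n : Type} [Fintype n] [DecidableEq n] {k : Type} [NontriviallyNormedField k]
  {σ : k →+* k} {ε : k} {J : Matrix n n k} {j r : ℕ}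

/-- the one parameter family -/
theorem tendsto_eiv (hF : Fm σ ε J) (hσ : Continuous σ) {u v : n → k} {c : k}
    (h : EP σ ε J u v c) (X : SGr σ J j) :
    Tendsto (fun t : k => eiv hF (ep_smul h hF.inv t) • X) (𝓝 0) (𝓝 X) := by
  have h0 : Continuous fun t : k => eim σ ε J u (t • v) (t * σ t * c) := by
    unfold eim
    have h1 : Continuous fun t : k => (fun i => σ ((t • v) i) : n → k) :=
      continuous_pi fun i => hσ.comp (continuous_id.mul continuous_const)
    have h2 : Continuous fun t : k => J *ᵥ (fun i => σ ((t • v) i) : n → k) :=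
      continuous_const.matrix_mulVec h1
    refine continuous_const.add (Continuous.add ?_ ?_)
    · refine Continuous.matrix_vecMulVec continuous_const ?_
      have h3 : Continuous fun t : k => ε * (t * σ t * c) := by fun_prop
      exact (continuous_id.smul continuous_const).add (h3.smul continuous_const)
    · exact Continuous.matrix_vecMulVec h2 continuous_const
  have hv : ∀ t : k, (ei σ ε J u (t • v) (t * σ t * c)).1 =
      eim σ ε J u (t • v) (t * σ t * c) := fun t => by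
    have hep := ep_smul h hF.inv t
    unfold ei
    rw [dif_pos ⟨hep.uu, hF.symm0 hep.vu, hep.vu⟩]
    rfl
  have h1 : Tendsto (fun t : k => ei σ ε J u (t • v) (t * σ t * c)) (𝓝 0) (𝓝 1) := by
    refine tendsto_SL ?_
    have e1 : (fun t => (ei σ ε J u (t • v) (t * σ t * c)).1) =
      fun t => eim σ ε J u (t • v) (t * σ t * c) := funext hv
    rw [e1]
    have h2 := h0.tendsto 0
    have e2 : eim σ ε J u ((0 : k) • v) (0 * σ 0 * c) = (1 : SpecialLinearGroup n k).1 := by
      refine ext_iff_vecMul.mpr fun x => ?_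
      rw [H370.Fo.vecMul_eim]
      have e3 : x ᵥ* (1 : SpecialLinearGroup n k).1 = x := vecMul_one x
      rw [e3]
      simp [hf_zero_right]
    rwa [e2] at h2
  have h2 : Tendsto (fun t : k => (⟨ei σ ε J u (t • v) (t * σ t * c),
      ei_mem hF (ep_smul h hF.inv t)⟩ : FormGroup σ J)) (𝓝 0) (𝓝 1) := by
    rw [tendsto_subtype_rng]
    exact h1
  have h3 := h2.inv
  rw [inv_one] at h3
  have h4 := h3.smul (tendsto_const_nhds (x := X))
  rw [one_smul] at h4
  exact h4

/-- **density**: a nonempty open set contains a space opposite to a given one -/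
theorem denseW (hF : Wf σ ε J r) (hσ : Continuous σ) {U : Set (SGr σ J j)} (hU : IsOpen U)
    (hUn : U.Nonempty) (Y : SGr σ J j) : ∃ X ∈ U, OppS X Y := by
  obtain ⟨X, hX⟩ := hUn
  obtain ⟨m, hm⟩ : ∃ m, finrank k ↥(X.S ⊓ perp σ J Y.S) = m := ⟨_, rfl⟩
  induction m using Nat.strong_induction_on generalizing X with
  | _ m ih =>
    by_cases h : OppS X Y
    · exact ⟨X, hX, h⟩
    · obtain ⟨u, v, c, hep, hs⟩ := stepW hF h
      have h1 := (tendsto_eiv hF.fm hσ hep X).eventually (hU.mem_nhds hX)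
      have h2 : ∀ᶠ t : k in 𝓝[≠] 0, eiv hF.fm (ep_smul hep hF.fm.inv t) • X ∈ U :=
        h1.filter_mono nhdsWithin_le_nhds
      have h3 : ∀ᶠ t : k in 𝓝[≠] 0, t ≠ 0 := eventually_mem_nhdsWithin
      obtain ⟨t, ht1, ht0⟩ := (h2.and h3).exists
      have hlt := hs t ht0
      rw [← eiv_S hF.fm (ep_smul hep hF.fm.inv t)] at hlt
      exact ih _ (hlt.trans_eq hm) _ ht1 rfl

/-- any two singular `j`-spaces have a common opposite one -/
theorem meetW [ProperSpace k] (hF : Wf σ ε J r) (hσ : Continuous σ) (A B : SGr σ J j) :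
    ∃ Y : SGr σ J j, OppS Y A ∧ OppS Y B := by
  obtain ⟨X, -, hX⟩ := denseW hF hσ isOpen_univ ⟨A, trivial⟩ A
  obtain ⟨Y, hY, hYB⟩ := denseW hF hσ (opp_open hσ A) ⟨X, hX⟩ B
  exact ⟨Y, hY, hYB⟩

end top

end Vale.Agent.P092.H306.G
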