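import Vale.Agent.P092.CL.LtO2
import Vale.Agent.P092.H315P.G7
import Vale.Agent.P092.H306.G.PurC
import Vale.Agent.P092.H306.G.DenO

/-!
P092 (helper306), Team P, stage CL-O, row CL-PUR: the inputs of purity and `PurStmt` for the
orthogonal letters `CL.ltO` (capacities: helper315; opposition: `H306/G/DenO`).
-/

set_option linter.all false

open scoped InnerProductSpace ENNReal
open Filter Topology MeasureTheory TopologicalSpace

namespace Vale.Agent.P092.H306.G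

open Vale.Agent.P092.H303 (FormGroup Idx hyp)
open Vale.Agent.P092.H370.Po (SGr WI)
open Vale.Agent.P092.H631.P2 (OppS opp_open₂)
open Vale.Agent.P092.CL (Lt ltO OF Geo PurStmt)

variable {k : Type} [NontriviallyNormedField k] [ProperSpace k] [MeasurableSpace k] {ι : Type}
  [Fintype ι] [DecidableEq ι] {J₀ : Matrix ι ι k}

/-- **the inputs of purity for the orthogonal letters** -/
theorem purInO (h : OF J₀) (s : ℕ) {a : k} (ha : a ≠ 0) (μ₁ : Measure k)
    (μ₂ : Measure (ι → k)) : PurIn (ltO h s ha μ₁ μ₂) where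
  o1 := by
    have e : {p : SGr (RingHom.id k) (hyp (s + 2) 1 J₀) 1 ×
        SGr (RingHom.id k) (hyp (s + 2) 1 J₀) 1 |
        (ltO h s ha μ₁ μ₂).opp1 p.1 p.2} = {p | OppS p.1 p.2} := by
      ext p
      exact opp1_iff_W (h.wf s) (by omega)
    rw [e]
    exact opp_open₂ continuous_id
  o2 := by
    have e : {p : SGr (RingHom.id k) (hyp (s + 2) 1 J₀) (s + 2) ×
        SGr (RingHom.id k) (hyp (s + 2) 1 J₀) (s + 2) |
        (ltO h s ha μ₁ μ₂).opp2 p.1 p.2} = {p | OppS p.1 p.2} := by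
      ext p
      exact opp2_iff_W (h.wf s)
    rw [e]
    exact opp_open₂ continuous_id
  m1 a b := by
    obtain ⟨y, h1, h2⟩ := meetW (h.wf s) continuous_id a b
    exact ⟨y, (opp1_iff_W (h.wf s) (by omega)).2 h1, (opp1_iff_W (h.wf s) (by omega)).2 h2⟩
  m2 a b := by
    obtain ⟨y, h1, h2⟩ := meetW (h.wf s) continuous_id a b
    exact ⟨y, (opp2_iff_W (h.wf s)).2 h1, (opp2_iff_W (h.wf s)).2 h2⟩
  c1 := fun _ hud => H315P.GO.cap1O h s ha μ₁ μ₂ (h.wi s) hud
  c2 := fun _ hud => H315P.GO.cap2O h s ha μ₁ μ₂ (h.wi s) hud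

/-- **[CL-PUR]** for the orthogonal letters -/
theorem purStmt_O [BorelSpace k] (h : OF J₀) (s : ℕ) {a : k} (ha : a ≠ 0) (μ₁ : Measure k)
    [IsFiniteMeasureOnCompacts μ₁] [μ₁.IsOpenPosMeasure] (μ₂ : Measure (ι → k))
    (hG : Geo (ltO h s ha μ₁ μ₂)) : PurStmt (ltO h s ha μ₁ μ₂) := by
  haveI : IsFiniteMeasureOnCompacts (ltO h s ha μ₁ μ₂).μ₁ := ‹IsFiniteMeasureOnCompacts μ₁›
  haveI : (ltO h s ha μ₁ μ₂).μ₁.IsOpenPosMeasure := ‹μ₁.IsOpenPosMeasure›
  intro E Γ K _ _ _ _ _ _ 𝒰 ι π lam W Ω m q U11 p11 U12 p12 U21 p21 U22 p22 hL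
  exact pur_cl hG (purInO h s ha μ₁ μ₂) hL

end Vale.Agent.P092.H306.G
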