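import Vale.Agent.P092.H370.Po3

/-!
P092 (helper306), tracks 2 and 3 of Team P, row CL-PUR, geometry: Eichler elements of a hermitian
form, transitivity of the isometry group on the antiflags (point `x`, singular `j`-space `l` with
`x` not orthogonal to `l`).  Any form `Frm σ ε J`, any field.
-/

set_option linter.all false

open Matrix Module Set

namespace Vale.Agent.P092.H306.G

open Vale.Agent.P092.H303 (FormGroup)
open Vale.Agent.P092.H714.Cl
open Vale.Agent.P092.H370.Po

section eic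

variable {n : Type} [Fintype n] [DecidableEq n] {k : Type} [Field k]
  {σ : k →+* k} {ε : k} {J : Matrix n n k}

/-- the matrix of `x ↦ x + h(x, z) y + (c h(x, z) - ε h(x, y)) z` -/
def eim (σ : k →+* k) (J : Matrix n n k) (ε : k) (z y : n → k) (c : k) : Matrix n n k :=
  1 + (Matrix.of fun i (a : Fin 2) => ![(J *ᵥ fun i => σ (z i)) i, (J *ᵥ fun i => σ (y i)) i] a) *
    (Matrix.of fun (a : Fin 2) j => ![(y + c • z) j, (-(ε • z)) j] a)

theorem vecMul_eim (x z y : n → k) (c : k) :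
    x ᵥ* eim σ J ε z y c = x + hf σ J x z • y + (c * hf σ J x z - ε * hf σ J x y) • z := by
  unfold eim
  rw [vecMul_add, vecMul_one, ← vecMul_vecMul]
  ext j
  simp only [Pi.add_apply, Pi.smul_apply, smul_eq_mul, vecMul, dotProduct, of_apply,
    Fin.sum_univ_two, cons_val_zero, cons_val_one, Pi.neg_apply]
  have e1 : ∑ i, x i * (J *ᵥ fun i => σ (z i)) i = hf σ J x z := rfl
  have e2 : ∑ i, x i * (J *ᵥ fun i => σ (y i)) i = hf σ J x y := rfl
  rw [e1, e2]
  ring

theorem det_eim {z y : n → k} (hz : hf σ J z z = 0) (hyz : hf σ J y z = 0)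
    (hzy : hf σ J z y = 0) (c : k) : (eim σ J ε z y c).det = 1 := by
  unfold eim
  rw [det_one_add_mul_comm, det_fin_two]
  have key : ∀ (u v : n → k), ∑ j, u j * (J *ᵥ fun i => σ (v i)) j = hf σ J u v := fun u v => rfl
  simp only [Matrix.add_apply, Matrix.one_apply_eq, Matrix.mul_apply, of_apply, cons_val_zero,
    cons_val_one, key]
  have e0 : hf σ J (y + c • z) z = 0 := by rw [hf_add_left, hf_smul_left, hyz, hz]; ring
  have e1 : hf σ J (-(ε • z)) z = 0 := by rw [← neg_smul, hf_smul_left, hz, mul_zero]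
  have e2 : hf σ J (-(ε • z)) y = 0 := by rw [← neg_smul, hf_smul_left, hzy, mul_zero]
  rw [e0, e1, e2, Matrix.one_apply_ne (show (1 : Fin 2) ≠ 0 by decide)]
  ring

/-- the Eichler element -/
def eic (ε : k) {z y : n → k} (hz : hf σ J z z = 0) (hyz : hf σ J y z = 0)
    (hzy : hf σ J z y = 0) (c : k) : SpecialLinearGroup n k :=
  toSL (eim σ J ε z y c) (det_eim hz hyz hzy c)

theorem vecMul_eic {z y : n → k} (hz : hf σ J z z = 0) (hyz : hf σ J y z = 0)
    (hzy : hf σ J z y = 0) (c : k) (x : n → k) : x ᵥ* (eic ε hz hyz hzy c).1 =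
      x + hf σ J x z • y + (c * hf σ J x z - ε * hf σ J x y) • z := vecMul_eim x z y c

/-- the Eichler element is an isometry -/
theorem eic_mem (hF : Frm σ ε J) {z y : n → k} (hz : hf σ J z z = 0) (hyz : hf σ J y z = 0)
    (hzy : hf σ J z y = 0) {c : k} (hc : hf σ J y y = -(c * ε + σ c)) :
    eic ε hz hyz hzy c ∈ FormGroup σ J := by
  rw [mem_formGroup]
  intro x x'
  rw [vecMul_eic, vecMul_eic]
  have h1 : hf σ J z x' = ε * σ (hf σ J x' z) := hF.herm _ _
  have h2 : hf σ J y x' = ε * σ (hf σ J x' y) := hF.herm _ _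
  simp only [hf_add_left, hf_add_right, hf_smul_left, hf_smul_right, hz, hyz, hzy, h1, h2, hc,
    map_sub, map_mul, hF.seps]
  have he := hF.eps
  linear_combination (hf σ J x y * σ (hf σ J x' z) * (-1 : k)) * he

end eic

section anti

variable {n : Type} [Fintype n] [DecidableEq n] {k : Type} [Field k]
  {σ : k →+* k} {ε : k} {J : Matrix n n k}

/-- a point is spanned by any of its vectors -/
theorem pt_span {x : SGr σ J 1} {v : n → k} (hv : v ∈ x.S) (h0 : v ≠ 0) :
    x.S = Submodule.span k {v} := by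
  symm
  refine Submodule.eq_of_le_of_finrank_eq ((Submodule.span_singleton_le_iff_mem _ _).2 hv) ?_
  rw [finrank_span_singleton h0, x.dim]

/-- a group element which moves one vector of a point into another point moves the point -/
theorem pt_smul {g : FormGroup σ J} {x x' : SGr σ J 1} {v : n → k} (hv : v ∈ x'.S) (h0 : v ≠ 0)
    (hg : v ᵥ* g.1.1 ∈ x.S) : g • x = x' := by
  rw [smul_eq_iff_eq_inv_smul]
  refine SGr.ext ?_
  change x.S = act (g⁻¹).1⁻¹ x'.S
  have e : (g⁻¹).1⁻¹ = g.1 := inv_inv g.1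
  rw [e, pt_span hv h0, act_span]
  refine pt_span hg ?_
  intro h
  refine h0 (vecMul_inj g.1 ?_)
  change v ᵥ* g.1.1 = 0 ᵥ* g.1.1
  rw [h, zero_vecMul]

/-- **Transitivity on antiflags**: a point and a singular `j`-space which are not orthogonal. -/
theorem trans_anti (hF : Frm σ ε J) {j : ℕ} {x x' : SGr σ J 1} {l l' : SGr σ J j}
    (h : ¬ Col x l) (h' : ¬ Col x' l') : ∃ g : FormGroup σ J, g • x = x' ∧ g • l = l' := by
  -- hyperplanes
  have key : ∀ {x : SGr σ J 1} {l : SGr σ J j}, ¬ Col x l → ∃ H : SGr σ J (j - 1), Inc H l ∧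
      Col x H ∧ ∃ v ∈ x.S, ∃ z ∈ l.S, hf σ J v z = 1 ∧
        ∀ y ∈ l.S, ∃ a : k, y + a • z ∈ H.S := by
    intro x l h
    have h1 : ∃ v ∈ x.S, ∃ z ∈ l.S, hf σ J v z ≠ 0 := by
      by_contra hc
      push Not at hc
      exact h hc
    obtain ⟨v₀, hv₀, z, hz, hvz⟩ := h1
    obtain ⟨v, hv⟩ : ∃ v : n → k, v = (hf σ J v₀ z)⁻¹ • v₀ := ⟨_, rfl⟩
    have hvx : v ∈ x.S := by rw [hv]; exact x.S.smul_mem _ hv₀
    have hvz1 : hf σ J v z = 1 := by rw [hv, hf_smul_left, inv_mul_cancel₀ hvz]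
    have hv0 : v ≠ 0 := by
      intro h0
      rw [h0, hf_zero_left] at hvz1
      exact zero_ne_one hvz1
    have hz0 : z ≠ 0 := by
      intro h0
      rw [h0, hf_zero_right] at hvz1
      exact zero_ne_one hvz1
    set H : Submodule k (n → k) := l.S ⊓ perp σ J x.S with hH
    have hsum : ∀ y ∈ l.S, y + (-(σ (hf σ J v y))) • z ∈ H := by
      intro y hy
      refine ⟨l.S.add_mem hy (l.S.smul_mem _ hz), ?_⟩
      change ∀ w ∈ x.S, hf σ J w (y + (-(σ (hf σ J v y))) • z) = 0
      intro w hw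
      rw [pt_span hvx hv0] at hw
      obtain ⟨b, rfl⟩ := Submodule.mem_span_singleton.1 hw
      rw [hf_add_right, hf_smul_right, hf_smul_left, hf_smul_left, hvz1, map_neg, hF.inv]
      ring
    have hzH : z ∉ H := by
      intro h2
      have h3 := mem_perp.1 h2.2 v hvx
      rw [hvz1] at h3
      exact one_ne_zero h3
    have he : l.S = H ⊔ Submodule.span k {z} := by
      apply le_antisymm
      · intro y hy
        have h3 : y = (y + (-(σ (hf σ J v y))) • z) + (σ (hf σ J v y)) • z := by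
          rw [neg_smul]; abel
        rw [h3]
        exact Submodule.add_mem_sup (hsum y hy)
          (Submodule.smul_mem _ _ (Submodule.mem_span_singleton_self z))
      · exact sup_le inf_le_left ((Submodule.span_singleton_le_iff_mem _ _).2 hz)
    have hd : finrank k H = j - 1 := by
      have h4 := finrank_sup_span hzH
      rw [← he, l.dim] at h4
      omega
    exact ⟨SGr.mk' H (l.sing.mono inf_le_left) hd, inf_le_left,
      fun a ha b hb => mem_perp.1 hb.2 a ha, v, hvx, z, hz, hvz1, fun y hy => ⟨_, hsum y hy⟩⟩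
  obtain ⟨H, hHl, hxH, -⟩ := key h
  obtain ⟨H', hHl', hxH', v', hv', z', hz', hvz', hsum'⟩ := key h'
  obtain ⟨g, -, hgH, hgl⟩ := trans_flag hF hHl hHl'
  have h1 : Col (g • x) H' := by rw [← hgH]; exact (col_smul g).2 hxH
  have h2 : ¬ Col (g • x) l' := by rw [← hgl]; exact fun hc => h ((col_smul g).1 hc)
  obtain ⟨u₀, hu₀, huz⟩ : ∃ u ∈ (g • x).S, hf σ J u z' ≠ 0 := by
    by_contra hc
    push Not at hc
    refine h2 fun u hu y hy => ?_
    obtain ⟨a, ha⟩ := hsum' y hy
    have h3 := h1 u hu _ ha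
    rwa [hf_add_right, hf_smul_right, hc u hu, mul_zero, add_zero] at h3
  obtain ⟨u, hu, huz1⟩ : ∃ u ∈ (g • x).S, hf σ J u z' = 1 :=
    ⟨(hf σ J u₀ z')⁻¹ • u₀, (g • x).S.smul_mem _ hu₀, by rw [hf_smul_left, inv_mul_cancel₀ huz]⟩
  have hv0 : v' ≠ 0 := by
    intro h0
    rw [h0, hf_zero_left] at hvz'
    exact zero_ne_one hvz'
  obtain ⟨y, hy⟩ : ∃ y : n → k, y = u + (-1 : k) • v' := ⟨_, rfl⟩
  have hyz : hf σ J y z' = 0 := by
    rw [hy, hf_add_left, hf_smul_left, huz1, hvz']
    ring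
  have hzy : hf σ J z' y = 0 := hF.symm_zero hyz
  have hzz : hf σ J z' z' = 0 := l'.sing.zero hz'
  have hyH : ∀ w ∈ H'.S, hf σ J w y = 0 := by
    intro w hw
    refine hF.symm_zero ?_
    rw [hy, hf_add_left, hf_smul_left, h1 u hu w hw, hxH' v' hv' w hw]
    ring
  have hyl : ∀ w ∈ l'.S, hf σ J w y = 0 := by
    intro w hw
    obtain ⟨a, ha⟩ := hsum' w hw
    have h3 := hyH _ ha
    rwa [hf_add_left, hf_smul_left, hzy, mul_zero, add_zero] at h3
  have huv : u = v' + y := by rw [hy, neg_one_smul]; abel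
  have huu : hf σ J u u = 0 := (g • x).sing.zero hu
  have hvv : hf σ J v' v' = 0 := x'.sing.zero hv'
  have hs : hf σ J y v' = ε * σ (hf σ J v' y) := hF.herm _ _
  have hc : hf σ J y y = -((ε * hf σ J v' y) * ε + σ (ε * hf σ J v' y)) := by
    rw [huv, hf_add_left, hf_add_right, hf_add_right, hvv, hs] at huu
    rw [map_mul, hF.seps]
    linear_combination huu + (hf σ J v' y) * hF.eps
  set E : FormGroup σ J := ⟨eic ε hzz hyz hzy (ε * hf σ J v' y), eic_mem hF hzz hyz hzy hc⟩
    with hE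
  have hEv : ∀ w, w ᵥ* E.1.1 = w + hf σ J w z' • y +
      (ε * hf σ J v' y * hf σ J w z' - ε * hf σ J w y) • z' := fun w =>
    vecMul_eic hzz hyz hzy _ w
  refine ⟨E * g, ?_, ?_⟩
  · rw [mul_smul]
    refine pt_smul hv' hv0 ?_
    rw [hEv, hvz', one_smul, mul_one, sub_self, zero_smul, add_zero, ← huv]
    exact hu
  · rw [mul_smul, hgl]
    refine smul_eq_of_fix fun w hw => ?_
    rw [hEv, hyl w hw, l'.sing w hw z' hz', zero_smul, mul_zero, mul_zero, sub_self, zero_smul,
      add_zero, add_zero]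

end anti

end Vale.Agent.P092.H306.G
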