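import Vale.Agent.P092.H306.G.Eic

/-!
P092 (helper306), tracks 2 and 3 of Team P, row CL-PUR, geometry, part 2: coordinate subspaces,
the base point `y0 = ⟨e_1⟩`, the two base maximal singular spaces `Lp = ⟨e_1, .., e_r⟩`,
`Lm = ⟨e_-1, e_2, .., e_r⟩` of the hyperbolic form, and the source configuration of (R)opp: for
every point `x` and every maximal singular `l` there is `g` with `g y0 = x` such that every
element `b` fixing `Lp` and `Lm` has `g b g⁻¹` fixing `l`.
-/

set_option linter.all false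

open Matrix Module Set

namespace Vale.Agent.P092.H306.G

open Vale.Agent.P092.H303 (FormGroup Idx hyp)
open Vale.Agent.P092.H714.Cl
open Vale.Agent.P092.H370.Po

section crd

variable {n : Type} [Fintype n] [DecidableEq n] {k : Type} [Field k]
  {σ : k →+* k} {ε : k} {J : Matrix n n k}

/-- the coordinate subspace -/
def crd (k : Type) [Field k] {n : Type} (S : Set n) : Submodule k (n → k) where
  carrier := {x | ∀ b ∉ S, x b = 0}
  add_mem' := fun {x y} hx hy b hb => by
    change x b + y b = 0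
    rw [hx b hb, hy b hb, add_zero]
  zero_mem' := fun b _ => rfl
  smul_mem' := fun c x hx b hb => by
    change c * x b = 0
    rw [hx b hb, mul_zero]

theorem mem_crd {S : Set n} {x : n → k} : x ∈ crd k S ↔ ∀ b ∉ S, x b = 0 := Iff.rfl

theorem single_mem_crd {S : Set n} {a : n} (ha : a ∈ S) (c : k) : Pi.single a c ∈ crd k S := by
  intro b hb
  rw [Pi.single_eq_of_ne]
  rintro rfl
  exact hb ha

theorem finrank_crd (S : Set n) : finrank k (crd k S) = Nat.card S := by
  classical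
  have e : crd k S ≃ₗ[k] (S → k) :=
    { toFun := fun x a => x.1 a.1
      map_add' := fun x y => rfl
      map_smul' := fun c x => rfl
      invFun := fun f => ⟨fun b => if h : b ∈ S then f ⟨b, h⟩ else 0, fun b hb => by
        change (if h : b ∈ S then f ⟨b, h⟩ else 0) = 0
        rw [dif_neg hb]⟩
      left_inv := fun x => by
        apply Subtype.ext
        funext b
        change (if h : b ∈ S then x.1 b else 0) = x.1 b
        by_cases hb : b ∈ S
        · rw [dif_pos hb]
        · rw [dif_neg hb, x.2 b hb]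
      right_inv := fun f => by
        funext a
        change (if h : a.1 ∈ S then f ⟨a.1, h⟩ else 0) = f a
        rw [dif_pos a.2] }
  rw [e.finrank_eq, finrank_fintype_fun_eq_card, Nat.card_eq_fintype_card]

theorem finrank_crd_range {r : ℕ} {e : Fin r → n} (he : Function.Injective e) :
    finrank k (crd k (range e)) = r := by
  rw [finrank_crd, Nat.card_range_of_injective he, Nat.card_eq_fintype_card, Fintype.card_fin]

theorem sing_crd {S : Set n} (h : ∀ a ∈ S, ∀ b ∈ S, J a b = 0) : Sing σ J (crd k S) := by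
  intro x hx y hy
  unfold hf
  simp only [dotProduct, mulVec]
  refine Finset.sum_eq_zero fun a _ => ?_
  by_cases ha : a ∈ S
  · have : ∑ b, J a b * σ (y b) = 0 := by
      refine Finset.sum_eq_zero fun b _ => ?_
      by_cases hb : b ∈ S
      · rw [h a ha b hb, zero_mul]
      · rw [hy b hb, map_zero, mul_zero]
    rw [this, mul_zero]
  · rw [hx a ha, zero_mul]

/-- an isometry which maps a singular space into itself fixes it -/
theorem smul_eq_of_mem {i : ℕ} {g : FormGroup σ J} {X : SGr σ J i}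
    (h : ∀ x ∈ X.S, x ᵥ* g.1.1 ∈ X.S) : g • X = X := by
  rw [smul_eq_iff_eq_inv_smul]
  refine SGr.ext ?_
  change X.S = act (g⁻¹).1⁻¹ X.S
  have e : (g⁻¹).1⁻¹ = g.1 := inv_inv g.1
  rw [e]
  symm
  refine Submodule.eq_of_le_of_finrank_eq ?_ (finrank_act _ _)
  intro y hy
  obtain ⟨x, hx, rfl⟩ := mem_act.1 hy
  exact h x hx

/-- the same for a coordinate subspace, in terms of the matrix -/
theorem smul_eq_of_crd {i : ℕ} {g : FormGroup σ J} {X : SGr σ J i} {S : Set n}
    (hX : X.S = crd k S) (h : ∀ a ∈ S, ∀ b ∉ S, g.1.1 a b = 0) : g • X = X := by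
  refine smul_eq_of_mem fun x hx => ?_
  rw [hX] at hx ⊢
  intro b hb
  change ∑ a, x a * g.1.1 a b = 0
  refine Finset.sum_eq_zero fun a _ => ?_
  by_cases ha : a ∈ S
  · rw [h a ha b hb, mul_zero]
  · rw [hx a ha, zero_mul]

/-- a point off a maximal singular space is not orthogonal to it -/
theorem not_col_of_not_inc (hF : Frm σ ε J) {r : ℕ} (hW : WI σ J r) {x : SGr σ J 1}
    {l : SGr σ J r} (h : ¬ Inc x l) : ¬ Col x l := by
  intro hc
  obtain ⟨v, hv, hvl⟩ : ∃ v ∈ x.S, v ∉ l.S := by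
    by_contra hcon
    push Not at hcon
    exact h hcon
  have h1 : Sing σ J (l.S ⊔ Submodule.span k {v}) :=
    sing_sup_span hF l.sing (x.sing.zero hv) fun y hy => hF.symm_zero (hc v hv y hy)
  have h2 := hW.2 _ h1
  rw [finrank_sup_span hvl, l.dim] at h2
  omega

/-- **the source configuration of (R)opp**, any form of Witt index `r` -/
theorem fix_g (hF : Frm σ ε J) {r : ℕ} (hW : WI σ J r) {y0 : SGr σ J 1} {Lp Lm : SGr σ J r}
    (hp : Inc y0 Lp) (hm : ¬ Inc y0 Lm) (x : SGr σ J 1) (l : SGr σ J r) :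
    ∃ g : FormGroup σ J, g • y0 = x ∧
      ∀ b : FormGroup σ J, b • Lp = Lp → b • Lm = Lm → (g * b * g⁻¹) • l = l := by
  by_cases h : Inc x l
  · obtain ⟨g, -, h1, h2⟩ := trans_flag hF hp h
    refine ⟨g, h1, fun b hb _ => ?_⟩
    rw [← h2, mul_smul, mul_smul, inv_smul_smul, hb]
  · obtain ⟨g, h1, h2⟩ := trans_anti hF (not_col_of_not_inc hF hW hm) (not_col_of_not_inc hF hW h)
    refine ⟨g, h1, fun b _ hb => ?_⟩
    rw [← h2, mul_smul, mul_smul, inv_smul_smul, hb]

end crd

section base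

variable {k : Type} [Field k] {σ : k →+* k} {ε : k} {ι : Type} [Fintype ι] [DecidableEq ι]
  {J₀ : Matrix ι ι k} {r : ℕ}

/-- the indices of `Lp` -/
def ep (r : ℕ) (ι : Type) (i : Fin r) : Idx r ι := Sum.inl (Sum.inl i)

/-- the indices of `Lm` -/
def em (r : ℕ) [NeZero r] (ι : Type) (i : Fin r) : Idx r ι :=
  if i = 0 then Sum.inl (Sum.inr i) else Sum.inl (Sum.inl i)

theorem ep_inj : Function.Injective (ep r ι) := fun i j h => Sum.inl_injective (Sum.inl_injective h)

theorem em_inj [NeZero r] : Function.Injective (em r ι) := by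
  intro i j h
  unfold em at h
  by_cases hi : i = 0
  · by_cases hj : j = 0
    · rw [hi, hj]
    · rw [if_pos hi, if_neg hj] at h
      exact absurd (Sum.inl_injective h) (by simp)
  · by_cases hj : j = 0
    · rw [if_neg hi, if_pos hj] at h
      exact absurd (Sum.inl_injective h) (by simp)
    · rw [if_neg hi, if_neg hj] at h
      exact Sum.inl_injective (Sum.inl_injective h)

/-- `⟨e_1, .., e_r⟩` -/
def Lp (σ : k →+* k) (ε : k) (J₀ : Matrix ι ι k) (r : ℕ) : SGr σ (hyp r ε J₀) r :=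
  SGr.mk' (crd k (range (ep r ι))) (sing_crd (by
    rintro _ ⟨i, rfl⟩ _ ⟨j, rfl⟩
    simp [hyp, ep])) (finrank_crd_range ep_inj)

/-- `⟨e_-1, e_2, .., e_r⟩` -/
def Lm (σ : k →+* k) (ε : k) (J₀ : Matrix ι ι k) (r : ℕ) [NeZero r] : SGr σ (hyp r ε J₀) r :=
  SGr.mk' (crd k (range (em r ι))) (sing_crd (by
    rintro _ ⟨i, rfl⟩ _ ⟨j, rfl⟩
    unfold em
    by_cases hi : i = 0
    · by_cases hj : j = 0
      · rw [if_pos hi, if_pos hj]
        simp [hyp]
      · rw [if_pos hi, if_neg hj]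
        have : j ≠ i := fun e => hj (e.trans hi)
        simp [hyp, Matrix.one_apply, this, this.symm]
    · by_cases hj : j = 0
      · rw [if_neg hi, if_pos hj]
        have : i ≠ j := fun e => hi (e.trans hj)
        simp [hyp, Matrix.one_apply, this, this.symm]
      · rw [if_neg hi, if_neg hj]
        simp [hyp])) (finrank_crd_range em_inj)

/-- `⟨e_1⟩` -/
def P0 (σ : k →+* k) (ε : k) (J₀ : Matrix ι ι k) (r : ℕ) [NeZero r] : SGr σ (hyp r ε J₀) 1 :=
  SGr.mk' (crd k (range fun _ : Fin 1 => ep r ι 0)) (sing_crd (by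
    rintro _ ⟨i, rfl⟩ _ ⟨j, rfl⟩
    simp [hyp, ep])) (finrank_crd_range (fun i j _ => Subsingleton.elim i j))

theorem p0_lp [NeZero r] : Inc (P0 σ ε J₀ r) (Lp σ ε J₀ r) := by
  intro x hx b hb
  refine hx b ?_
  rintro ⟨i, rfl⟩
  exact hb ⟨(0 : Fin r), rfl⟩

theorem p0_lm [NeZero r] : ¬ Inc (P0 σ ε J₀ r) (Lm σ ε J₀ r) := by
  intro h
  have h1 : (Pi.single (ep r ι 0) 1 : Idx r ι → k) ∈ (P0 σ ε J₀ r).S :=
    single_mem_crd (S := range fun _ : Fin 1 => ep r ι 0) ⟨0, rfl⟩ 1
  have h2 := h h1 (ep r ι 0) (by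
    rintro ⟨i, hi⟩
    unfold em ep at hi
    by_cases h0 : i = 0
    · rw [if_pos h0] at hi
      exact absurd (Sum.inl_injective hi) (by simp)
    · rw [if_neg h0] at hi
      exact h0 (Sum.inl_injective (Sum.inl_injective hi)))
  rw [Pi.single_eq_same] at h2
  exact one_ne_zero h2

/-- an element fixes `Lp` if its matrix vanishes outside -/
theorem fix_lp {g : FormGroup σ (hyp r ε J₀)} (h : ∀ i, ∀ b ∉ range (ep r ι),
    g.1.1 (ep r ι i) b = 0) : g • Lp σ ε J₀ r = Lp σ ε J₀ r :=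
  smul_eq_of_crd (S := range (ep r ι)) rfl (by
    rintro _ ⟨i, rfl⟩ b hb
    exact h i b hb)

theorem fix_lm [NeZero r] {g : FormGroup σ (hyp r ε J₀)} (h : ∀ i, ∀ b ∉ range (em r ι),
    g.1.1 (em r ι i) b = 0) : g • Lm σ ε J₀ r = Lm σ ε J₀ r :=
  smul_eq_of_crd (S := range (em r ι)) rfl (by
    rintro _ ⟨i, rfl⟩ b hb
    exact h i b hb)

/-- diagonal elements fix both -/
theorem fix_diag [NeZero r] {g : FormGroup σ (hyp r ε J₀)} (h : ∀ a b, a ≠ b → g.1.1 a b = 0) :
    g • Lp σ ε J₀ r = Lp σ ε J₀ r ∧ g • Lm σ ε J₀ r = Lm σ ε J₀ r := by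
  refine ⟨fix_lp fun i b hb => h _ _ ?_, fix_lm fun i b hb => h _ _ ?_⟩
  · rintro rfl
    exact hb ⟨i, rfl⟩
  · rintro rfl
    exact hb ⟨i, rfl⟩

end base

end Vale.Agent.P092.H306.G
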